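import Vale.Agent.P281.H125.KH.Sh
import Vale.Agent.P281.H603.K.Base
import Vale.Agent.P211.HK.LocSys

/-!
# P281, project T-K, blocks KFIB, TFIB (helper125): closed holomorphic 1-forms on the sheets and
their primitives
-/

open Set Filter Metric MeasureTheory Vale.Agent.P272.K
open scoped Topology ContDiff ComplexConjugate ComplexOrder

noncomputable section

namespace Vale.Agent.P281.H125.Fib

open Vale.Agent.P281.H64.TK Vale.Agent.P281.H125.KH.Sh

variable {d : ℕ} {E Γ : Type} [TopologicalSpace E] [Group Γ] [MulAction Γ E]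
  {S : Sheets d E Γ} {α : Fin S.N → Cm d → (Cm d →L[ℂ] ℂ)}

/-- a closed holomorphic 1-form -/
structure Cl1 (S : Sheets d E Γ) (α : Fin S.N → Cm d → (Cm d →L[ℂ] ℂ)) : Prop where
  prim : ∀ i, ∀ z ∈ ball (0 : Cm d) 3, ∃ φ : Cm d → ℂ, ∀ᶠ y in 𝓝 z, HasFDerivAt φ (α i y) y
  change : ∀ i j, ∀ z ∈ U S i j, α i z = (α j (τ S i j z)).comp (fderiv ℂ (τ S i j) z)

/-- `s` is a primitive near `x` -/
def Par (S : Sheets d E Γ) (α : Fin S.N → Cm d → (Cm d →L[ℂ] ℂ)) (x : E) (s : E → ℂ) : Prop :=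
  ∀ (i : Fin S.N) (γ : Γ) (z : Cm d), z ∈ ball (0 : Cm d) 3 → x = γ • S.σ i z →
    ∀ᶠ y in 𝓝 z, HasFDerivAt (fun y => s (γ • S.σ i y)) (α i y) y

theorem par_of (hα : Cl1 S α) {s : E → ℂ} {i : Fin S.N} {γ : Γ} {z : Cm d}
    (hz : z ∈ ball (0 : Cm d) 3)
    (h : ∀ᶠ y in 𝓝 z, HasFDerivAt (fun y => s (γ • S.σ i y)) (α i y) y) :
    Par S α (γ • S.σ i z) s := by
  intro j γ' w hw he
  have h1 : S.σ j w = (γ'⁻¹ * γ) • S.σ i z := by
    rw [mul_smul, he, smul_smul, inv_mul_cancel, one_smul]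
  have hU : w ∈ U S j i := mem_U hw hz h1
  obtain ⟨h2, h3⟩ := tau_unique hw hz h1
  have h4 : ∀ᶠ u in 𝓝 w, HasFDerivAt (fun y => s (γ • S.σ i y)) (α i (τ S j i u))
      (τ S j i u) := by
    have h' : ∀ᶠ u in 𝓝 (τ S j i w), HasFDerivAt (fun y => s (γ • S.σ i y)) (α i u) u := by
      rw [h2]; exact h
    exact (analyticAt_tau hU).continuousAt.eventually h'
  have h5 : ∀ᶠ u in 𝓝 w, u ∈ U S j i ∧ κ S j i u = γ'⁻¹ * γ := by
    filter_upwards [isOpen_U.mem_nhds hU, kappa_local hU] with u a b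
    exact ⟨a, b.trans h3⟩
  filter_upwards [h4, h5, h5.eventually_nhds] with u h6 h7 h8
  have h9 := h6.comp u (analyticAt_tau h7.1).differentiableAt.hasFDerivAt
  rw [← hα.change j i u h7.1] at h9
  refine h9.congr_of_eventuallyEq ?_
  filter_upwards [h8] with y hy
  show s (γ' • S.σ j y) = s (γ • S.σ i (τ S j i y))
  rw [sigma_eq hy.1, hy.2, smul_smul, mul_inv_cancel_left]

section
variable [ContinuousConstSMul Γ E]

theorem map_nhds_smul (γ : Γ) (i : Fin S.N) {z : Cm d} (hz : z ∈ ball (0 : Cm d) 3) :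
    Filter.map (fun u => γ • S.σ i u) (𝓝 z) = 𝓝 (γ • S.σ i z) := by
  have h1 : (fun u => γ • S.σ i u) = (Homeomorph.smul γ : E ≃ₜ E) ∘ S.σ i := rfl
  rw [h1, ← Filter.map_map, S.map_nhds i z hz]
  exact (Homeomorph.smul γ : E ≃ₜ E).map_nhds_eq _

theorem par_sub {x : E} {s s' : E → ℂ} (hs : Par S α x s)
    (hs' : Par S α x s') : ∀ᶠ q in 𝓝 x, s q - s' q = s x - s' x := by
  obtain ⟨γ, i, z, hz, rfl⟩ := S.cover x
  have hz3 : z ∈ ball (0 : Cm d) 3 := mem_ball_zero_iff.2 (by linarith)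
  rw [← map_nhds_smul γ i hz3, eventually_map]
  obtain ⟨r, hr, hb⟩ := Metric.eventually_nhds_iff_ball.1
    ((hs i γ z hz3 rfl).and (hs' i γ z hz3 rfl))
  filter_upwards [ball_mem_nhds z hr] with u hu
  have h2 : ∀ v ∈ ball z r, HasFDerivAt
      (fun v => s (γ • S.σ i v) - s' (γ • S.σ i v)) (0 : Cm d →L[ℂ] ℂ) v := by
    intro v hv
    have := (hb v hv).1.sub (hb v hv).2
    rwa [sub_self] at this
  exact isOpen_ball.is_const_of_fderiv_eq_zero (𝕜 := ℂ) (convex_ball z r).isPreconnected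
    (fun v hv => (h2 v hv).differentiableAt.differentiableWithinAt)
    (fun v hv => (h2 v hv).fderiv) hu (mem_ball_self hr)

open Classical in
/-- a function on the image of a sheet -/
def ex (S : Sheets d E Γ) (γ : Γ) (i : Fin S.N) (F : Cm d → ℂ) (q : E) : ℂ :=
  if h : ∃ y ∈ ball (0 : Cm d) 3, γ • S.σ i y = q then F h.choose else 0

omit [ContinuousConstSMul Γ E] in
theorem ex_eq (γ : Γ) (i : Fin S.N) (F : Cm d → ℂ) {y : Cm d} (hy : y ∈ ball (0 : Cm d) 3) :
    ex S γ i F (γ • S.σ i y) = F y := by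
  have h : ∃ y' ∈ ball (0 : Cm d) 3, γ • S.σ i y' = γ • S.σ i y := ⟨y, hy, rfl⟩
  have h1 := h.choose_spec
  have h2 : S.σ i h.choose = S.σ i y := by
    have := congrArg (fun e => γ⁻¹ • e) h1.2
    simpa [smul_smul] using this
  obtain ⟨-, h3⟩ := S.inj i _ h1.1 y hy 1 (by rw [one_smul]; exact h2)
  simp only [ex, h, dif_pos]
  rw [h3]

theorem locSys (hα : Cl1 S α) :
    Vale.Agent.P211.HK.LocSys (X := E) (F := fun _ => ℂ) (Par S α) where
  opn x s hs := by
    obtain ⟨γ, i, z, hz, rfl⟩ := S.cover x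
    have hz3 : z ∈ ball (0 : Cm d) 3 := mem_ball_zero_iff.2 (by linarith)
    rw [← map_nhds_smul γ i hz3, eventually_map]
    filter_upwards [(hs i γ z hz3 rfl).eventually_nhds, isOpen_ball.mem_nhds hz3] with u h1 h2
    exact par_of hα h2 h1
  uniq x s s' hs hs' h := by
    filter_upwards [par_sub hs hs'] with q hq
    rw [h, sub_self] at hq
    exact sub_eq_zero.1 hq
  clo x s s' hs hs' h := by
    obtain ⟨q, hq, hq'⟩ := (h.and_eventually (par_sub hs hs')).exists
    rw [hq, sub_self] at hq'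
    exact (sub_eq_zero.1 hq'.symm)
  loc x s s' hs h := by
    obtain ⟨γ, i, z, hz, rfl⟩ := S.cover x
    have hz3 : z ∈ ball (0 : Cm d) 3 := mem_ball_zero_iff.2 (by linarith)
    refine par_of hα hz3 ?_
    rw [← map_nhds_smul γ i hz3, eventually_map] at h
    filter_upwards [hs i γ z hz3 rfl, h.eventually_nhds] with u h1 h2
    refine h1.congr_of_eventuallyEq ?_
    filter_upwards [h2] with y hy
    rw [hy]
  ext x := by
    obtain ⟨γ, i, z, hz, rfl⟩ := S.cover x
    have hz3 : z ∈ ball (0 : Cm d) 3 := mem_ball_zero_iff.2 (by linarith)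
    obtain ⟨F, hF⟩ := hα.prim i z hz3
    obtain ⟨V, hV1, hV2, hV3⟩ := _root_.eventually_nhds_iff.1 (hF.and (isOpen_ball.mem_nhds hz3))
    have hopen : ∀ᶠ q in 𝓝 (γ • S.σ i z), ∃ y ∈ V, γ • S.σ i y = q := by
      rw [← map_nhds_smul γ i hz3, eventually_map]
      filter_upwards [hV2.mem_nhds hV3] with y hy using ⟨y, hy, rfl⟩
    refine ⟨{q | ∃ y ∈ V, γ • S.σ i y = q}, hopen, fun q hq c => ?_⟩
    refine ⟨fun q' => ex S γ i F q' + (c - ex S γ i F q), by ring, ?_⟩
    rintro _ ⟨y, hy, rfl⟩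
    refine par_of hα (hV1 y hy).2 ?_
    filter_upwards [hV2.mem_nhds hy] with y' hy'
    have h1 := (hV1 y' hy').1.add_const (c - ex S γ i F q)
    refine h1.congr_of_eventuallyEq ?_
    filter_upwards [hV2.mem_nhds hy'] with y'' hy''
    rw [ex_eq γ i _ (hV1 y'' hy'').2]

/-- The sheet `γ • σ i`, as a local homeomorphism from `ℂ^d` to `E`. -/
def ph (S : Sheets d E Γ) (γ : Γ) (i : Fin S.N) : OpenPartialHomeomorph (Cm d) E :=
  OpenPartialHomeomorph.ofContinuousOpenRestrict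
    (InjOn.toPartialEquiv (fun z => γ • S.σ i z) (ball 0 3)
      ((MulAction.injective γ).comp_injOn (fun z hz w hw h =>
        (S.inj i z hz w hw 1 (by rw [one_smul]; exact h)).2)))
    (fun z hz => (show ContinuousAt (fun z => γ • S.σ i z) z from
      (map_nhds_smul γ i hz).le).continuousWithinAt)
    (by
      rw [IsOpenMap]
      intro U hU
      obtain ⟨V, hV, rfl⟩ := isOpen_induced_iff.1 hU
      have h1 : ((ball (0 : Cm d) 3).domRestrict fun z => γ • S.σ i z) '' (Subtype.val ⁻¹' V) =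
          (fun z => γ • S.σ i z) '' (V ∩ ball 0 3) := by
        ext e
        constructor
        · rintro ⟨⟨z, hz⟩, hzV, rfl⟩
          exact ⟨z, ⟨hzV, hz⟩, rfl⟩
        · rintro ⟨z, ⟨hzV, hz⟩, rfl⟩
          exact ⟨⟨z, hz⟩, hzV, rfl⟩
      have h2 : IsOpen ((fun z => γ • S.σ i z) '' (V ∩ ball 0 3)) := by
        rw [isOpen_iff_mem_nhds]
        rintro _ ⟨z, hz, rfl⟩
        rw [← map_nhds_smul γ i hz.2]
        exact image_mem_map ((hV.inter isOpen_ball).mem_nhds hz)
      rw [← h1] at h2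
      exact h2)
    isOpen_ball

/-- the coordinate near `e` -/
theorem exists_ph (S : Sheets d E Γ) (e : E) : ∃ (γ : Γ) (i : Fin S.N), e ∈ (ph S γ i).target := by
  obtain ⟨γ, i, z, hz, rfl⟩ := S.cover e
  exact ⟨γ, i, z, mem_ball_zero_iff.2 (by linarith), rfl⟩

/-- `E` is a manifold. -/
@[implicit_reducible] def charted (S : Sheets d E Γ) : ChartedSpace (Cm d) E where
  atlas := {φ | ∃ γ i, φ = (ph S γ i).symm}
  chartAt e := (ph S (exists_ph S e).choose (exists_ph S e).choose_spec.choose).symm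
  mem_chart_source e := (exists_ph S e).choose_spec.choose_spec
  chart_mem_atlas e := ⟨_, _, rfl⟩

theorem locPathConnected (S : Sheets d E Γ) : LocallyPathConnectedSpace E :=
  @ChartedSpace.locallyPathConnectedSpace (Cm d) E _ _ (charted S) _

/-- **Primitives**: a closed holomorphic 1-form is `dh`, `h` holomorphic and additive. -/
theorem exists_prim [SimplyConnectedSpace E] (hα : Cl1 S α) :
    ∃ (h : E → ℂ) (c : Γ → ℂ), Add S h c ∧
      ∀ i, ∀ z ∈ ball (0 : Cm d) 3, HasFDerivAt (fun z => h (S.σ i z)) (α i z) z := by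
  have : LocallyPathConnectedSpace E := locPathConnected S
  obtain ⟨e₀⟩ : Nonempty E := inferInstance
  obtain ⟨s, ⟨-, hs⟩, -⟩ := (locSys hα).existsUnique e₀ (0 : ℂ)
  have hder : ∀ i (γ : Γ), ∀ z ∈ ball (0 : Cm d) 3,
      HasFDerivAt (fun u => s (γ • S.σ i u)) (α i z) z := fun i γ z hz =>
    (hs _ i γ z hz rfl).self_of_nhds
  have hconn : PreconnectedSpace E := inferInstance
  have hadd : ∀ (γ : Γ) (e : E), s (γ • e) = s e + (s (γ • e₀) - s e₀) := by
    intro γ e
    have h1 : ∀ q, Par S α q fun e => s (γ • e) - (s (γ • e₀) - s e₀) := by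
      intro q
      obtain ⟨γ', i, z, hz, rfl⟩ := S.cover q
      have hz3 : z ∈ ball (0 : Cm d) 3 := mem_ball_zero_iff.2 (by linarith)
      refine par_of hα hz3 ?_
      filter_upwards [isOpen_ball.mem_nhds hz3] with u hu
      have h2 := (hder i (γ * γ') u hu).sub_const (s (γ • e₀) - s e₀)
      simpa only [mul_smul] using h2
    have h3 := (locSys hα).eqOn (V := univ) isPreconnected_univ (fun q _ => h1 q)
      (fun q _ => hs q) (p := e₀) (mem_univ _) (by ring) e (mem_univ e)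
    have h4 : s (γ • e) - (s (γ • e₀) - s e₀) = s e := h3
    rw [← h4]
    ring
  refine ⟨s, fun γ => s (γ • e₀) - s e₀, ⟨fun i z hz => ?_, hadd⟩, fun i z hz => ?_⟩
  · have := hder i 1 z hz
    simp only [one_smul] at this
    exact this.differentiableAt.differentiableWithinAt
  · have := hder i 1 z hz
    simpa only [one_smul] using this

end

end Vale.Agent.P281.H125.Fib
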