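import Vale.Agent.P281.H864.Toc.Fam

/-!
# P281, T-T, block TBAS (helper125): bases of the additive functions of a torus
-/

open Set Filter Metric Vale.Agent.P272.K
open scoped Topology ContDiff ComplexConjugate

noncomputable section

namespace Vale.Agent.P281.H125.Fib

open Vale.Agent.P281.H64.TK Vale.Agent.P281.H864.Toc
open Vale.Agent.P281.H603.K (unique_of_re const_of_eventually)

variable {d : ℕ} {E Γ : Type} [TopologicalSpace E] [Group Γ] [MulAction Γ E] {S : Sheets d E Γ}

/-- linear combinations of additive functions -/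
theorem add_comb {g : E → ℂ} {b : Γ → ℂ} (hg : Add S g b) {h : E → Cm d} {c : Γ → Cm d}
    (hadd : ∀ a, Add S (fun e => h e a) fun γ => c γ a) (r : ℂ) (s : Fin d → ℂ) :
    Add S (fun e => r * g e - ∑ a, s a * h e a) (fun γ => r * b γ - ∑ a, s a * c γ a) where
  hol i := by
    have h1 : ∀ a, DifferentiableOn ℂ (fun z => h (S.σ i z) a) (ball 0 3) := fun a => (hadd a).hol i
    exact ((hg.hol i).const_mul r).sub
      (DifferentiableOn.fun_sum fun a _ => (h1 a).const_mul (s a))
  add γ e := by
    have h1 : ∀ a, h (γ • e) a = h e a + c γ a := fun a => (hadd a).add γ e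
    simp only [hg.add, h1, mul_add, Finset.sum_add_distrib]
    ring

/-- the gradient of a linear combination -/
theorem dd_comb {g : E → ℂ} {b : Γ → ℂ} (hg : Add S g b) {h : E → Cm d} {c : Γ → Cm d}
    (hadd : ∀ a, Add S (fun e => h e a) fun γ => c γ a) (r : ℂ) (s : Fin d → ℂ) {i : Fin S.N}
    {z : Cm d} (hz : z ∈ ball (0 : Cm d) 3) (k : Fin d) :
    dd k (fun z => r * g (S.σ i z) - ∑ a, s a * h (S.σ i z) a) z =
      r * dd k (fun z => g (S.σ i z)) z - ∑ a, s a * dd k (fun z => h (S.σ i z) a) z := by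
  have h1 : ∀ a, HasFDerivAt (fun z => h (S.σ i z) a) (fderiv ℂ (fun z => h (S.σ i z) a) z) z :=
    fun a => ((hadd a).hol i).differentiableAt (isOpen_ball.mem_nhds hz) |>.hasFDerivAt
  have h2 := ((hg.hol i).differentiableAt (isOpen_ball.mem_nhds hz)).hasFDerivAt
  have h3 := (h2.const_mul r).sub
    (HasFDerivAt.fun_sum (u := Finset.univ) fun a _ => (h1 a).const_mul (s a))
  have h4 : dd k (fun z => r * g (S.σ i z) - ∑ a, s a * h (S.σ i z) a) z =
      (r • fderiv ℂ (fun z => g (S.σ i z)) z -
        ∑ a, s a • fderiv ℂ (fun z => h (S.σ i z) a) z) (Pi.single k 1) := by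
    rw [← h3.fderiv]
    rfl
  rw [h4]
  simp [dd]

/-- replace the component `a` of `h` by `g` -/
def upd (h : E → Cm d) (g : E → ℂ) (a : Fin d) (e : E) : Cm d := Function.update (h e) a (g e)

theorem upd_add {g : E → ℂ} {b : Γ → ℂ} (hg : Add S g b) {h : E → Cm d} (hh : AddV S h)
    (a : Fin d) : AddV S (upd h g a) := by
  intro a'
  by_cases h1 : a' = a
  · subst h1
    refine ⟨b, ?_⟩
    have : (fun e => upd h g a' e a') = g := by
      funext e
      simp [upd]
    rw [this]
    exact hg
  · obtain ⟨b', hb'⟩ := hh a'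
    refine ⟨b', ?_⟩
    have : (fun e => upd h g a e a') = fun e => h e a' := by
      funext e
      simp [upd, h1]
    rw [this]
    exact hb'

theorem cramer (h : E → Cm d) (g : E → ℂ) (i : Fin S.N) (z : Cm d) (k : Fin d) :
    ∑ a, dd k (fun z => h (S.σ i z) a) z * S.minor (upd h g a) i z =
      S.minor h i z * dd k (fun z => g (S.σ i z)) z := by
  set J : Matrix (Fin d) (Fin d) ℂ := Matrix.of fun a k => dd k (fun z => h (S.σ i z) a) z with hJ
  set v : Fin d → ℂ := fun k => dd k (fun z => g (S.σ i z)) z with hv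
  have h1 : ∀ a, S.minor (upd h g a) i z = Matrix.cramer J.transpose v a := by
    intro a
    rw [Matrix.cramer_transpose_apply, Sheets.minor]
    congr 1
    ext a' k
    rw [Matrix.updateRow_apply]
    by_cases h2 : a' = a
    · subst h2
      simp [upd, hv]
    · simp [upd, hJ, h2]
  have h3 := congrFun (Matrix.mulVec_cramer J.transpose v) k
  rw [Matrix.det_transpose] at h3
  simp only [h1]
  exact h3

/-- **TBAS** -/
theorem tbas : TBasStmt := by
  intro d E Γ _ _ _ _ _ _ S h c hd hadd hmin
  have hH : AddV S h := fun a => ⟨_, hadd a⟩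
  have hz0 : (0 : Cm d) ∈ ball (0 : Cm d) 3 := mem_ball_self (by norm_num)
  have hzero : Add S (fun _ : E => (0 : ℂ)) (fun _ : Γ => (0 : ℂ)) :=
    ⟨fun i => differentiableOn_const _, fun γ e => by simp⟩
  obtain ⟨e₀⟩ : Nonempty E := inferInstance
  obtain ⟨γ₀, i₀, z₀, hz₀, -⟩ := S.cover e₀
  refine ⟨hadd, ?_, ?_⟩
  · intro s hs
    have H := add_comb hzero hadd 0 (-s)
    have hconst := unique_of_re S H (fun γ => by
      have h1 := hs γ
      simp only [Pi.neg_apply, neg_mul, Finset.sum_neg_distrib, h1]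
      simp)
    by_contra hne
    refine hmin i₀ 0 hz0 ?_
    refine Matrix.exists_vecMul_eq_zero_iff.1 ⟨s, hne, ?_⟩
    funext k
    have h1 := dd_comb hzero hadd 0 (-s) hz0 (i := i₀) k
    have h2 : (fun z => 0 * (0 : ℂ) - ∑ a, (-s) a * h (S.σ i₀ z) a) = fun _ : Cm d =>
        0 * (0 : ℂ) - ∑ a, (-s) a * h (S.σ i₀ 0) a := by
      funext z
      exact hconst _ _
    rw [h2] at h1
    have h3 : dd k (fun _ : Cm d => 0 * (0 : ℂ) - ∑ a, (-s) a * h (S.σ i₀ 0) a) (0 : Cm d) = 0 := by
      simp [dd]
    rw [h3] at h1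
    simp only [Pi.neg_apply, neg_mul, Finset.sum_neg_distrib] at h1
    have h4 : (0 : ℂ) = ∑ a, s a * dd k (fun z => h (S.σ i₀ z) a) 0 := by
      rw [h1]
      ring
    simp only [Matrix.vecMul, dotProduct, Matrix.of_apply, Pi.zero_apply]
    exact h4.symm
  · intro g b hg
    -- the coefficients
    choose gg ii zz hzz hcov using S.cover
    set f : Fin d → E → ℂ := fun a e =>
      S.minor (upd h g a) (ii e) (zz e) / S.minor h (ii e) (zz e) with hf
    have hfe : ∀ a (γ : Γ) i, ∀ z ∈ ball (0 : Cm d) 3,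
        f a (γ • S.σ i z) = S.minor (upd h g a) i z / S.minor h i z := by
      intro a γ i z hz
      set e := γ • S.σ i z with he
      have hz1 : zz e ∈ ball (0 : Cm d) 3 := mem_ball_zero_iff.2 (by linarith [hzz e])
      have h1 : S.σ i z = (γ⁻¹ * gg e) • S.σ (ii e) (zz e) := by
        rw [mul_smul, hcov e, he, inv_smul_smul]
      obtain ⟨θ, h2, h3, h4, h5⟩ := H864.K.holCompat_refl S i (ii e) z hz _ hz1 _ h1
      have h6 : S.minor h i z = S.minor h (ii e) (zz e) * (jac θ z).det :=
        minor_change (S' := S) hH (q := S.σ i) hz1 h2.differentiableAt h3 h5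
      have h7 : S.minor (upd h g a) i z = S.minor (upd h g a) (ii e) (zz e) * (jac θ z).det :=
        minor_change (S' := S) (upd_add hg hH a) (q := S.σ i) hz1 h2.differentiableAt h3 h5
      rw [h6, h7, mul_div_mul_right _ _ h4]
    have hfadd : ∀ a, Add S (f a) (fun _ => 0) := by
      intro a
      constructor
      · intro i z hz
        have h1 : (fun z => S.minor (upd h g a) i z / S.minor h i z) =ᶠ[𝓝 z]
            fun z => f a (S.σ i z) := by
          filter_upwards [isOpen_ball.mem_nhds hz] with u hu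
          have := hfe a 1 i u hu
          rw [one_smul] at this
          exact this.symm
        have h2 : DifferentiableAt ℂ (fun z => S.minor (upd h g a) i z / S.minor h i z) z :=
          ((minor_analyticAt (upd_add hg hH a) i hz).div (minor_analyticAt hH i hz)
            (hmin i z hz)).differentiableAt
        exact (h2.congr_of_eventuallyEq h1.symm).differentiableWithinAt
      · intro γ e
        have hz1 : zz e ∈ ball (0 : Cm d) 3 := mem_ball_zero_iff.2 (by linarith [hzz e])
        have h1 := hfe a (γ * gg e) (ii e) (zz e) hz1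
        rw [mul_smul, hcov e] at h1
        rw [h1, add_zero]
    set s : Fin d → ℂ := fun a => f a e₀ with hs
    have hfs : ∀ a e, f a e = s a := fun a e => unique_of_re S (hfadd a) (fun _ => rfl) e e₀
    have hms : ∀ a i, ∀ z ∈ ball (0 : Cm d) 3,
        S.minor (upd h g a) i z = s a * S.minor h i z := by
      intro a i z hz
      have h1 := hfe a 1 i z hz
      rw [one_smul, hfs] at h1
      rw [h1, div_mul_cancel₀ _ (hmin i z hz)]
    refine ⟨s, fun γ => ?_⟩
    have K := add_comb hg hadd 1 s
    -- the derivative is zero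
    have hder : ∀ z ∈ ball (0 : Cm d) 3,
        fderiv ℂ (fun z => 1 * g (S.σ i₀ z) - ∑ a, s a * h (S.σ i₀ z) a) z = 0 := by
      intro z hz
      have h1 : ∀ k, dd k (fun z => 1 * g (S.σ i₀ z) - ∑ a, s a * h (S.σ i₀ z) a) z = 0 := by
        intro k
        rw [dd_comb hg hadd 1 s hz k, one_mul, sub_eq_zero]
        have h2 := cramer h g i₀ z k
        have h3 : ∑ a, dd k (fun z => h (S.σ i₀ z) a) z * S.minor (upd h g a) i₀ z =
            S.minor h i₀ z * ∑ a, s a * dd k (fun z => h (S.σ i₀ z) a) z := by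
          rw [Finset.mul_sum]
          refine Finset.sum_congr rfl fun a _ => ?_
          rw [hms a i₀ z hz]
          ring
        rw [h3] at h2
        exact (mul_left_cancel₀ (hmin i₀ z hz) h2).symm
      ext v
      rw [pi_eq_sum_univ' v, map_sum]
      simp only [map_smul]
      refine (Finset.sum_eq_zero fun k _ => ?_).trans (by simp)
      have h4 := h1 k
      rw [dd] at h4
      rw [h4, smul_zero]
    have hloc : ∀ᶠ e in 𝓝 (S.σ i₀ 0), 1 * g e - ∑ a, s a * h e a =
        1 * g (S.σ i₀ 0) - ∑ a, s a * h (S.σ i₀ 0) a := by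
      rw [← S.map_nhds i₀ 0 hz0, eventually_map]
      filter_upwards [isOpen_ball.mem_nhds hz0] with u hu
      exact isOpen_ball.is_const_of_fderiv_eq_zero (𝕜 := ℂ)
        (convex_ball (0 : Cm d) 3).isPreconnected (K.hol i₀) (fun z hz => hder z hz) hu hz0
    have h1 := const_of_eventually K hloc (γ • e₀)
    have h2 := const_of_eventually K hloc e₀
    have h3 := K.add γ e₀
    rw [h1, h2] at h3
    have h4 : 1 * b γ - ∑ a, s a * c γ a = 0 := by
      have := h3
      exact (left_eq_add.1 this)
    rw [one_mul, sub_eq_zero] at h4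
    exact h4

end Vale.Agent.P281.H125.Fib
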