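import Vale.Agent.P281.H125.Fib.Loc

/-!
# P281, project T-K, blocks KFIB, TFIB (helper125): the model of a fibre; lifting closed 1-forms
-/

open Set Filter Metric Vale.Agent.P281 Vale.Agent.P272.K
open scoped Topology ContDiff Manifold ComplexConjugate ComplexOrder

noncomputable section

namespace Vale.Agent.P281.H125.Fib

open Vale.Agent.P281.H64.TK Vale.Agent.P281.H125.KH.Sh

/-! ### The data of a fibre -/

section model
variable {p d : ℕ} {Z Y F : Type} [TopologicalSpace Z] [ChartedSpace (Cm (p + d)) Z]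
  [TopologicalSpace Y] [ChartedSpace (Cm p) Y] [TopologicalSpace F] [ChartedSpace (Cm d) F]
  {E Γ : Type} [TopologicalSpace E] [Group Γ] [MulAction Γ E]

theorem fd_of_model {f : Z → Y} {S : Set Y} (hp : H64.IsProperFibration (n := p + d) (p := p) f S)
    {𝓕 : Fam p d E Γ} {χ : OpenPartialHomeomorph Y (Cm p)} {q : Cm p → E → Z}
    (M : Model (n := p + d) f 𝓕 χ q) {t : Cm p} (ht : t ∈ 𝓕.T) (hS : χ.symm t ∉ S) {i : F → Z}
    (hi : H511.Surf.IsFibre (Cm (p + d)) (Cm d) f (χ.symm t) i) (hinj : Function.Injective i) :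
    FD (p + d) (𝓕.at t ht) (q t) i := by
  have htt : t ∈ χ.target := M.sub ht
  have hsrc : χ.symm t ∈ χ.source := χ.map_target htt
  have hχ : χ (χ.symm t) = t := χ.right_inv htt
  have hrange : range (q t) = f ⁻¹' {χ.symm t} := by
    ext x
    constructor
    · rintro ⟨e, rfl⟩
      exact M.fib t ht e
    · intro hx
      have hx' : f x = χ.symm t := hx
      obtain ⟨e, he⟩ := M.surj x (by rw [hx']; exact hsrc) (by rw [hx', hχ]; exact ht)
      rw [hx', hχ] at he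
      exact ⟨e, he⟩
  refine ⟨?_, M.eq t ht, ?_, ?_, ?_, hi.hol, hinj, hi.immersion, ?_⟩
  · exact continuous_subtype_val.comp (M.cov t ht).continuous
  · intro j z hz
    have h1 := M.hol j t ht z hz
    have h2 : ContMDiffAt 𝓘(ℂ, Cm d) 𝓘(ℂ, Cm p × Cm d) ω (fun y : Cm d => (t, y)) z := by
      rw [contMDiffAt_iff_contDiffAt]
      fun_prop
    exact ContMDiffAt.comp (g := fun r : Cm p × Cm d => q r.1 (𝓕.σ j r.1 r.2)) z h1 h2
  · intro j z hz
    obtain ⟨ζ, h1, h2, h3⟩ := M.coord j t ht z hz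
    refine ⟨ζ, h1, h2, ?_⟩
    filter_upwards [h3] with x hx
    rintro ⟨e, rfl⟩
    have h4 : χ (f (q t e)) = t := by rw [M.fib t ht e, hχ]
    rw [h4] at hx
    exact hx
  · rw [hrange]
    exact (hp.connected _ hS).isPreconnected
  · rintro _ ⟨x, rfl⟩
    rw [hrange]
    exact hi.fibre x

end model

/-! ### Lifting closed 1-forms -/

section lift
variable {d : ℕ} {F : Type} [TopologicalSpace F] [ChartedSpace (Cm d) F]
  {E Γ : Type} [TopologicalSpace E] [Group Γ] [MulAction Γ E] {S : Sheets d E Γ}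

/-- the properties of `π` -/
structure Pi (S : Sheets d E Γ) (π : E → F) : Prop where
  cont : Continuous π
  surj : Function.Surjective π
  inv : ∀ (γ : Γ) e, π (γ • e) = π e
  der : ∀ j, ∀ z ∈ ball (0 : Cm d) 3, ∃ L : Cm d ≃L[ℂ] Cm d,
    HasMFDerivAt 𝓘(ℂ, Cm d) 𝓘(ℂ, Cm d) (fun y => π (S.σ j y)) z (L : Cm d →L[ℂ] Cm d)

/-- `η` is a closed holomorphic 1-form on `F` -/
def IsCl (η : F → (Cm d →L[ℂ] ℂ)) : Prop :=
  ∀ x', ∃ ψ : F → ℂ, J.HolAt (Cm d) ψ x' ∧ ∀ᶠ z in 𝓝 x', η z = J.dif (Cm d) ψ z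

/-- the derivative of `π ∘ σ_j` -/
def D (S : Sheets d E Γ) (π : E → F) (j : Fin S.N) (y : Cm d) : Cm d →L[ℂ] Cm d :=
  mfderiv 𝓘(ℂ, Cm d) 𝓘(ℂ, Cm d) (fun y => π (S.σ j y)) y

/-- the form `π^* η` -/
def lift (S : Sheets d E Γ) (π : E → F) (η : F → (Cm d →L[ℂ] ℂ)) (j : Fin S.N) (y : Cm d) :
    Cm d →L[ℂ] ℂ :=
  (η (π (S.σ j y))).comp (D S π j y)

theorem Pi.hasMFDerivAt {π : E → F} (h : Pi S π) {j : Fin S.N} {z : Cm d}
    (hz : z ∈ ball (0 : Cm d) 3) :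
    HasMFDerivAt 𝓘(ℂ, Cm d) 𝓘(ℂ, Cm d) (fun y => π (S.σ j y)) z (D S π j z) := by
  obtain ⟨L, hL⟩ := h.der j z hz
  exact hL.mdifferentiableAt.hasMFDerivAt

theorem Pi.exists_equiv {π : E → F} (h : Pi S π) {j : Fin S.N} {z : Cm d}
    (hz : z ∈ ball (0 : Cm d) 3) : ∃ L : Cm d ≃L[ℂ] Cm d, (L : Cm d →L[ℂ] Cm d) = D S π j z := by
  obtain ⟨L, hL⟩ := h.der j z hz
  exact ⟨L, hL.mfderiv.symm⟩

theorem Pi.continuousAt {π : E → F} (h : Pi S π) {j : Fin S.N} {z : Cm d}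
    (hz : z ∈ ball (0 : Cm d) 3) : ContinuousAt (fun y => π (S.σ j y)) z :=
  h.cont.continuousAt.comp (S.map_nhds j z hz).le

variable [IsManifold 𝓘(ℂ, Cm d) ω F]

/-- the chain rule -/
theorem Pi.hasFDerivAt_comp {π : E → F} (h : Pi S π) {j : Fin S.N} {z : Cm d}
    (hz : z ∈ ball (0 : Cm d) 3) {ψ : F → ℂ} (hψ : J.HolAt (Cm d) ψ (π (S.σ j z))) :
    HasFDerivAt (fun y => ψ (π (S.σ j y))) ((J.dif (Cm d) ψ (π (S.σ j z))).comp (D S π j z)) z := by
  have h1 : HasMFDerivAt 𝓘(ℂ, Cm d) 𝓘(ℂ, ℂ) ψ (π (S.σ j z)) (J.dif (Cm d) ψ (π (S.σ j z))) :=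
    (hψ.mdifferentiableAt (by simp)).hasMFDerivAt
  exact (HasMFDerivAt.comp z h1 (h.hasMFDerivAt hz)).hasFDerivAt

theorem holAt_eventually {ψ : F → ℂ} {x : F} (hψ : J.HolAt (Cm d) ψ x) :
    ∀ᶠ y in 𝓝 x, J.HolAt (Cm d) ψ y :=
  (contMDiffAt_iff_contMDiffAt_nhds (by simp)).1 hψ

theorem Pi.cl1 {π : E → F} (h : Pi S π) {η : F → (Cm d →L[ℂ] ℂ)} (hη : IsCl η) :
    Cl1 S (lift S π η) where
  prim j z hz := by
    obtain ⟨ψ, h1, h2⟩ := hη (π (S.σ j z))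
    refine ⟨fun y => ψ (π (S.σ j y)), ?_⟩
    filter_upwards [(h.continuousAt hz).eventually (holAt_eventually h1),
      (h.continuousAt hz).eventually h2, isOpen_ball.mem_nhds hz] with y h3 h4 h5
    have h6 := h.hasFDerivAt_comp h5 h3
    rw [← h4] at h6
    exact h6
  change i j z hz := by
    have hz3 : z ∈ ball (0 : Cm d) 3 := hz.1
    have hw3 : τ S i j z ∈ ball (0 : Cm d) 3 := tau_mem hz
    have e0 : ∀ u ∈ U S i j, π (S.σ i u) = π (S.σ j (τ S i j u)) := by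
      intro u hu
      rw [sigma_eq hu, h.inv]
    have e1 : (fun u => π (S.σ i u)) =ᶠ[𝓝 z] (fun y => π (S.σ j y)) ∘ τ S i j := by
      filter_upwards [isOpen_U.mem_nhds hz] with u hu using e0 u hu
    have e2 : HasMFDerivAt 𝓘(ℂ, Cm d) 𝓘(ℂ, Cm d) (τ S i j) z (fderiv ℂ (τ S i j) z) :=
      (analyticAt_tau hz).differentiableAt.hasFDerivAt.hasMFDerivAt
    have e3 := ((HasMFDerivAt.comp z (h.hasMFDerivAt hw3) e2).congr_of_eventuallyEq e1)
    have e4 : D S π i z = (D S π j (τ S i j z)).comp (fderiv ℂ (τ S i j) z) := e3.mfderiv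
    show (η (π (S.σ i z))).comp (D S π i z) =
      ((η (π (S.σ j (τ S i j z)))).comp (D S π j (τ S i j z))).comp (fderiv ℂ (τ S i j) z)
    rw [e4, e0 z hz, ContinuousLinearMap.comp_assoc]

/-- the additive functions given by closed forms -/
theorem Pi.exists_add [ContinuousConstSMul Γ E] [SimplyConnectedSpace E] {π : E → F}
    (h : Pi S π) {η : F → (Cm d →L[ℂ] ℂ)} (hη : IsCl η) :
    ∃ (g : E → ℂ) (c : Γ → ℂ), Add S g c ∧ ∀ i, ∀ z ∈ ball (0 : Cm d) 3,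
      HasFDerivAt (fun z => g (S.σ i z)) ((η (π (S.σ i z))).comp (D S π i z)) z :=
  exists_prim (h.cl1 hη)

end lift

end Vale.Agent.P281.H125.Fib
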