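import Vale.Agent.P281.H125.Fib.Prim
import Vale.Agent.P281.H64.TK.SpecT

/-!
# P281, project T-K, blocks KFIB, TFIB (helper125): the fibre and its universal covering
-/

open Set Filter Metric Vale.Agent.P281 Vale.Agent.P272.K
open scoped Topology ContDiff Manifold ComplexConjugate ComplexOrder

noncomputable section

namespace Vale.Agent.P281.H125.Fib

open Vale.Agent.P281.H64.TK Vale.Agent.P281.H125.KH.Sh

/-! ### Charts -/

section chart
variable {d : ℕ} {F : Type} [TopologicalSpace F] [ChartedSpace (Cm d) F]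

/-- a map from `ℂ^d` to `F`, in the chart at its value -/
theorem hasMFDerivAt_of {f : Cm d → F} {z : Cm d} (hc : ContinuousAt f z) {L : Cm d →L[ℂ] Cm d}
    (h : HasFDerivAt (fun y => chartAt (Cm d) (f z) (f y)) L z) :
    HasMFDerivAt 𝓘(ℂ, Cm d) 𝓘(ℂ, Cm d) f z L := by
  refine ⟨hc, ?_⟩
  simp only [writtenInExtChartAt, extChartAt, mfld_simps, chartAt_self_eq]
  exact hasFDerivWithinAt_univ.2 h

variable {W : Type} [NormedAddCommGroup W] [NormedSpace ℂ W]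

theorem mfderiv_eq' {g : F → W} {x : F} (h : MDifferentiableAt 𝓘(ℂ, Cm d) 𝓘(ℂ, W) g x) :
    mfderiv 𝓘(ℂ, Cm d) 𝓘(ℂ, W) g x =
      fderiv ℂ (fun u => g ((chartAt (Cm d) x).symm u)) (chartAt (Cm d) x x) := by
  rw [h.mfderiv]
  simp only [writtenInExtChartAt, extChartAt, mfld_simps, chartAt_self_eq, fderivWithin_univ,
    Function.comp_def]
  rfl

theorem contDiffAt_chart {g : F → W} {x : F} (h : ContMDiffAt 𝓘(ℂ, Cm d) 𝓘(ℂ, W) ω g x) :
    ContDiffAt ℂ ω (fun u => g ((chartAt (Cm d) x).symm u)) (chartAt (Cm d) x x) := by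
  have h1 := (contMDiffAt_iff.1 h).2
  simp only [extChartAt, mfld_simps, chartAt_self_eq, contDiffWithinAt_univ,
    Function.comp_def] at h1
  exact h1

end chart

/-- an injective endomorphism of `ℂ^d` -/
theorem exists_equiv {d : ℕ} {L : Cm d →L[ℂ] Cm d} (h : Function.Injective L) :
    ∃ L' : Cm d ≃L[ℂ] Cm d, (L' : Cm d →L[ℂ] Cm d) = L := by
  refine ⟨(LinearEquiv.ofInjectiveEndo (L : Cm d →ₗ[ℂ] Cm d) h).toContinuousLinearEquiv, ?_⟩
  ext v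
  rfl

/-! ### The fibre -/

variable {n d : ℕ} {Z F : Type} [TopologicalSpace Z] [ChartedSpace (Cm n) Z]
  [TopologicalSpace F] [ChartedSpace (Cm d) F] {E Γ : Type} [TopologicalSpace E] [Group Γ]
  [MulAction Γ E]

/-- `Q : E → Z` is the universal covering of a closed submanifold of `Z`, and `i : F → Z` is an
injective immersion in it -/
structure FD (n : ℕ) {d : ℕ} {Z F : Type} [TopologicalSpace Z] [ChartedSpace (Cm n) Z]
    [TopologicalSpace F] [ChartedSpace (Cm d) F] {E Γ : Type} [TopologicalSpace E] [Group Γ]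
    [MulAction Γ E] (S : Sheets d E Γ) (Q : E → Z) (i : F → Z) : Prop where
  Qcont : Continuous Q
  Qeq : ∀ e e', Q e = Q e' ↔ ∃ γ : Γ, γ • e = e'
  hol : ∀ j, ∀ z ∈ ball (0 : Cm d) 3,
    ContMDiffAt 𝓘(ℂ, Cm d) 𝓘(ℂ, Cm n) ω (fun y => Q (S.σ j y)) z
  coord : ∀ j, ∀ z ∈ ball (0 : Cm d) 3, ∃ ζ : Z → Cm d,
    ContMDiffAt 𝓘(ℂ, Cm n) 𝓘(ℂ, Cm d) ω ζ (Q (S.σ j z)) ∧ ζ (Q (S.σ j z)) = z ∧
    ∀ᶠ x in 𝓝 (Q (S.σ j z)), x ∈ range Q → Q (S.σ j (ζ x)) = x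
  conn : IsPreconnected (range Q)
  ihol : ContMDiff 𝓘(ℂ, Cm d) 𝓘(ℂ, Cm n) ω i
  iinj : Function.Injective i
  imm : ∀ x, Function.Injective (mfderiv 𝓘(ℂ, Cm d) 𝓘(ℂ, Cm n) i x)
  isub : range i ⊆ range Q

namespace FD
variable {S : Sheets d E Γ} {Q : E → Z} {i : F → Z}

/-- the coordinate on `F` -/
theorem exists_g (h : FD n S Q i) {x₀ : F} {j : Fin S.N} {z : Cm d} (hz : z ∈ ball (0 : Cm d) 3)
    (hx : i x₀ = Q (S.σ j z)) : ∃ (ζ : Z → Cm d) (G' : Cm d ≃L[ℂ] Cm d),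
      ContinuousAt (fun x => ζ (i x)) x₀ ∧ ζ (i x₀) = z ∧
      (∀ᶠ x in 𝓝 (Q (S.σ j z)), x ∈ range Q → Q (S.σ j (ζ x)) = x) ∧
      ContinuousAt ζ (Q (S.σ j z)) ∧
      HasStrictFDerivAt (fun u => ζ (i ((chartAt (Cm d) x₀).symm u))) (G' : Cm d →L[ℂ] Cm d)
        (chartAt (Cm d) x₀ x₀) := by
  obtain ⟨ζ, h1, h2, h3⟩ := h.coord j z hz
  have h1' : ContMDiffAt 𝓘(ℂ, Cm n) 𝓘(ℂ, Cm d) ω ζ (i x₀) := by rw [hx]; exact h1
  have hg : ContMDiffAt 𝓘(ℂ, Cm d) 𝓘(ℂ, Cm d) ω (fun x => ζ (i x)) x₀ :=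
    ContMDiffAt.comp x₀ h1' (h.ihol x₀)
  have hg0 : ζ (i x₀) = z := by rw [hx, h2]
  have hloc : i =ᶠ[𝓝 x₀] (fun y => Q (S.σ j y)) ∘ fun x => ζ (i x) := by
    have h4 : ∀ᶠ x in 𝓝 (i x₀), x ∈ range Q → Q (S.σ j (ζ x)) = x := by rw [hx]; exact h3
    filter_upwards [(h.ihol x₀).continuousAt.eventually h4] with x hx'
    exact (hx' (h.isub ⟨x, rfl⟩)).symm
  have hinj : Function.Injective (mfderiv 𝓘(ℂ, Cm d) 𝓘(ℂ, Cm d) (fun x => ζ (i x)) x₀) := by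
    have hQ : MDifferentiableAt 𝓘(ℂ, Cm d) 𝓘(ℂ, Cm n) (fun y => Q (S.σ j y)) (ζ (i x₀)) := by
      rw [hg0]; exact (h.hol j z hz).mdifferentiableAt (by simp)
    have h5 := ((hQ.hasMFDerivAt.comp x₀
      (hg.mdifferentiableAt (by simp)).hasMFDerivAt).congr_of_eventuallyEq hloc).mfderiv
    have h6 : ∀ ξ : Cm d, (mfderiv 𝓘(ℂ, Cm d) 𝓘(ℂ, Cm n) i x₀ ξ : Cm n) =
        (mfderiv 𝓘(ℂ, Cm d) 𝓘(ℂ, Cm n) (fun y => Q (S.σ j y)) (ζ (i x₀))
          (mfderiv 𝓘(ℂ, Cm d) 𝓘(ℂ, Cm d) (fun x => ζ (i x)) x₀ ξ) : Cm n) := fun ξ =>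
      congrArg (fun L : Cm d →L[ℂ] Cm n => L ξ) h5
    intro ξ ξ' hξ
    refine h.imm x₀ ?_
    have e1 := h6 ξ
    have e2 := h6 ξ'
    rw [hξ] at e1
    exact e1.trans e2.symm
  rw [mfderiv_eq' (hg.mdifferentiableAt (by simp))] at hinj
  obtain ⟨G', hG'⟩ := exists_equiv hinj
  refine ⟨ζ, G', hg.continuousAt, hg0, h3, h1.continuousAt, ?_⟩
  rw [hG']
  exact (contDiffAt_chart hg).hasStrictFDerivAt (by simp)

/-- the coordinate is open -/
theorem map_g (h : FD n S Q i) {x₀ : F} {j : Fin S.N} {z : Cm d} (hz : z ∈ ball (0 : Cm d) 3)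
    (hx : i x₀ = Q (S.σ j z)) : ∃ ζ : Z → Cm d, ζ (i x₀) = z ∧
      Filter.map (fun x => ζ (i x)) (𝓝 x₀) = 𝓝 z ∧ ContinuousAt ζ (Q (S.σ j z)) ∧
      ∀ᶠ x in 𝓝 (Q (S.σ j z)), x ∈ range Q → Q (S.σ j (ζ x)) = x := by
  obtain ⟨ζ, G', h1, h2, h3, h5, h4⟩ := h.exists_g hz hx
  refine ⟨ζ, h2, ?_, h5, h3⟩
  have e1 := h4.map_nhds_eq_of_equiv
  rw [(chartAt (Cm d) x₀).left_inv (mem_chart_source _ x₀), h2] at e1
  rw [← e1, ← (chartAt (Cm d) x₀).map_nhds_eq (mem_chart_source _ x₀), Filter.map_map]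
  refine Filter.map_congr ?_
  filter_upwards [(chartAt (Cm d) x₀).open_source.mem_nhds (mem_chart_source _ x₀)] with x hx'
  show ζ (i x) = ζ (i ((chartAt (Cm d) x₀).symm (chartAt (Cm d) x₀ x)))
  rw [(chartAt (Cm d) x₀).left_inv hx']

theorem exists_sheet (h : FD n S Q i) (x : Z) (hx : x ∈ range Q) :
    ∃ (j : Fin S.N) (z : Cm d), ‖z‖ < 1 ∧ Q (S.σ j z) = x := by
  obtain ⟨e, rfl⟩ := hx
  obtain ⟨γ, j, z, hz, he⟩ := S.cover e
  exact ⟨j, z, hz, (h.Qeq _ _).2 ⟨γ, he⟩⟩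

/-- `i` is onto -/
theorem range_eq (h : FD n S Q i) [T2Space Z] [CompactSpace F] [Nonempty F] :
    range i = range Q := by
  refine Subset.antisymm h.isub ?_
  have hcl : IsClosed (range i) := (isCompact_range h.ihol.continuous).isClosed
  have hpre : PreconnectedSpace (range Q) := isPreconnected_iff_preconnectedSpace.1 h.conn
  set A : Set (range Q) := Subtype.val ⁻¹' range i with hA
  have hAc : IsClosed A := hcl.preimage continuous_subtype_val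
  have hAo : IsOpen A := by
    rw [isOpen_iff_mem_nhds]
    rintro ⟨x, hxQ⟩ ⟨x₀, hx₀⟩
    have hx₀' : i x₀ = x := hx₀
    obtain ⟨j, z, hz, hjz⟩ := h.exists_sheet x hxQ
    have hz3 : z ∈ ball (0 : Cm d) 3 := mem_ball_zero_iff.2 (by linarith)
    obtain ⟨ζ, h1, h2, h3, h4⟩ := h.map_g hz3 (hx₀'.trans hjz.symm)
    -- nearby points of the fibre are images of points of `F`
    have h5 : ∀ᶠ x' in 𝓝 x₀, Q (S.σ j (ζ (i x'))) = i x' := by
      have h6 : ∀ᶠ x in 𝓝 (i x₀), x ∈ range Q → Q (S.σ j (ζ x)) = x := by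
        rw [hx₀', ← hjz]; exact h4
      filter_upwards [h.ihol.continuous.continuousAt.eventually h6] with x' hx'
      exact hx' (h.isub ⟨x', rfl⟩)
    have h7 : ∀ᶠ u in 𝓝 z, ∃ x', ζ (i x') = u ∧ Q (S.σ j (ζ (i x'))) = i x' := by
      rw [← h2, eventually_map]
      filter_upwards [h5] with x' hx' using ⟨x', rfl, hx'⟩
    have h8 : ∀ᶠ y in 𝓝 x, y ∈ range Q → y ∈ range i := by
      rw [← hjz]
      have h9 : ∀ᶠ y in 𝓝 (Q (S.σ j z)), ∃ x', ζ (i x') = ζ y ∧ Q (S.σ j (ζ (i x'))) = i x' := by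
        refine h3.eventually (p := fun u => ∃ x', ζ (i x') = u ∧ Q (S.σ j (ζ (i x'))) = i x') ?_
        have h10 : ζ (Q (S.σ j z)) = z := by rw [hjz, ← hx₀']; exact h1
        rw [h10]
        exact h7
      filter_upwards [h9, h4] with y hy hy' hyQ
      obtain ⟨x', e1, e2⟩ := hy
      exact ⟨x', by rw [← e2, e1, hy' hyQ]⟩
    have h11 : ∀ᶠ y : range Q in 𝓝 (⟨x, hxQ⟩ : range Q), (y : Z) ∈ range Q → (y : Z) ∈ range i :=
      (continuous_subtype_val.tendsto (⟨x, hxQ⟩ : range Q)).eventually h8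
    filter_upwards [h11] with y hy using hy y.2
  have hne : A.Nonempty := by
    obtain ⟨x⟩ : Nonempty F := inferInstance
    exact ⟨⟨i x, h.isub ⟨x, rfl⟩⟩, x, rfl⟩
  have huniv : A = univ := IsClopen.eq_univ ⟨hAc, hAo⟩ hne
  intro x hx
  have : (⟨x, hx⟩ : range Q) ∈ A := by rw [huniv]; exact mem_univ _
  exact this

/-- the covering map `E → F` -/
theorem exists_pi (h : FD n S Q i) [T2Space Z] [CompactSpace F] [Nonempty F] :
    ∃ π : E → F, Continuous π ∧ Function.Surjective π ∧ (∀ (γ : Γ) e, π (γ • e) = π e) ∧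
      ∀ j, ∀ z ∈ ball (0 : Cm d) 3, ∃ L : Cm d ≃L[ℂ] Cm d,
        HasMFDerivAt 𝓘(ℂ, Cm d) 𝓘(ℂ, Cm d) (fun y => π (S.σ j y)) z (L : Cm d →L[ℂ] Cm d) := by
  have hr := h.range_eq
  have hex : ∀ e, ∃ x, i x = Q e := by
    intro e
    have : Q e ∈ range i := by rw [hr]; exact ⟨e, rfl⟩
    exact this
  choose π hπ using hex
  have hemb : Topology.IsClosedEmbedding i := h.ihol.continuous.isClosedEmbedding h.iinj
  have hcont : Continuous π := by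
    rw [hemb.isInducing.continuous_iff]
    have : i ∘ π = Q := funext hπ
    rw [this]
    exact h.Qcont
  have hinv : ∀ (γ : Γ) e, π (γ • e) = π e := by
    intro γ e
    apply h.iinj
    rw [hπ, hπ]
    exact ((h.Qeq e (γ • e)).2 ⟨γ, rfl⟩).symm
  refine ⟨π, hcont, ?_, hinv, ?_⟩
  · intro x
    obtain ⟨e, he⟩ : i x ∈ range Q := h.isub ⟨x, rfl⟩
    exact ⟨e, h.iinj ((hπ e).trans he)⟩
  · intro j z hz
    set x₀ := π (S.σ j z) with hx₀
    have hx : i x₀ = Q (S.σ j z) := hπ _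
    obtain ⟨ζ, G', h1, h2, h3, -, h4⟩ := h.exists_g hz hx
    set e := chartAt (Cm d) x₀ with he
    have hcσ : ContinuousAt (fun y => π (S.σ j y)) z :=
      hcont.continuousAt.comp (S.map_nhds j z hz).le
    have hv : ContinuousAt (fun y => e (π (S.σ j y))) z :=
      ContinuousAt.comp (g := e) (f := fun y => π (S.σ j y))
        (e.continuousAt (mem_chart_source _ x₀)) hcσ
    have hsrc : ∀ᶠ y in 𝓝 z, π (S.σ j y) ∈ e.source :=
      hcσ.eventually (e.open_source.mem_nhds (mem_chart_source _ x₀))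
    have h5 : ∀ᶠ x in 𝓝 x₀, Q (S.σ j (ζ (i x))) = i x := by
      have h6 : ∀ᶠ x in 𝓝 (i x₀), x ∈ range Q → Q (S.σ j (ζ x)) = x := by
        rw [hx]; exact h3
      filter_upwards [h.ihol.continuous.continuousAt.eventually h6] with x' hx'
      exact hx' (h.isub ⟨x', rfl⟩)
    have h7 : ∀ᶠ x in 𝓝 x₀, ζ (i x) ∈ ball (0 : Cm d) 3 := by
      refine h1.eventually (p := fun y => y ∈ ball (0 : Cm d) 3) ?_
      show ∀ᶠ y in 𝓝 (ζ (i x₀)), y ∈ ball (0 : Cm d) 3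
      rw [h2]
      exact isOpen_ball.mem_nhds hz
    have hinv' : ∀ᶠ y in 𝓝 z, ζ (i (e.symm (e (π (S.σ j y))))) = y := by
      filter_upwards [hsrc, hcσ.eventually h5, hcσ.eventually h7, isOpen_ball.mem_nhds hz]
        with y a1 a2 a3 a4
      rw [e.left_inv a1]
      have a5 : Q (S.σ j (ζ (i (π (S.σ j y))))) = Q (S.σ j y) := by rw [a2, hπ]
      obtain ⟨γ, hγ⟩ := (h.Qeq _ _).1 a5
      exact (S.inj j _ a3 y a4 γ hγ).2
    have hd := HasFDerivAt.of_local_left_inverse (f := fun u => ζ (i (e.symm u))) (f' := G')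
      (g := fun y => e (π (S.σ j y))) (a := z) hv h4.hasFDerivAt hinv'
    exact ⟨G'.symm, hasMFDerivAt_of hcσ hd⟩

end FD

end Vale.Agent.P281.H125.Fib
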