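import Vale.Agent.P281.H125.Fib.Form

/-!
# P281, project T-K, blocks KFIB, TFIB (helper125)
-/

open Set Filter Metric Vale.Agent.P281 Vale.Agent.P272.K
open scoped Topology ContDiff Manifold ComplexConjugate ComplexOrder

noncomputable section

namespace Vale.Agent.P281.H125.Fib

open Vale.Agent.P281.H64.TK Vale.Agent.P281.H125.KH.Sh

/-! ### Linear algebra -/

theorem clm_apply {d : ℕ} (L : Cm d →L[ℂ] ℂ) (w : Cm d) :
    L w = ∑ c, L (Pi.single c 1) * w c := by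
  conv_lhs => rw [pi_eq_sum_univ' w]
  rw [map_sum]
  refine Finset.sum_congr rfl fun c _ => ?_
  rw [map_smul, smul_eq_mul, mul_comm]

/-- linear forms `A a` and an injective endomorphism `L` -/
theorem matrix_comp {d : ℕ} (A : Fin d → (Cm d →L[ℂ] ℂ)) (L : Cm d →L[ℂ] Cm d) :
    (Matrix.of fun a b => A a (L (Pi.single b 1))) =
      (Matrix.of fun a b => A a (Pi.single b 1)) * Matrix.of fun l k => L (Pi.single k 1) l := by
  ext a b
  rw [Matrix.mul_apply]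
  simp only [Matrix.of_apply]
  rw [clm_apply (A a)]

theorem mulVec_of {d : ℕ} (A : Fin d → (Cm d →L[ℂ] ℂ)) (w : Cm d) :
    (Matrix.of fun a b => A a (Pi.single b 1)).mulVec w = fun a => A a w := by
  funext a
  rw [clm_apply (A a) w]
  rfl

/-- independent linear forms -/
theorem det_ne_zero_of {d : ℕ} {A : Fin d → (Cm d →L[ℂ] ℂ)}
    (h : ∀ w, (∀ a, A a w = 0) → w = 0) : (Matrix.of fun a b => A a (Pi.single b 1)).det ≠ 0 := by
  intro h0
  obtain ⟨w, hw, hw'⟩ := Matrix.exists_mulVec_eq_zero_iff.2 h0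
  rw [mulVec_of] at hw'
  exact hw (h w fun a => congrFun hw' a)

theorem det_jac_ne_zero {d : ℕ} {L : Cm d →L[ℂ] Cm d} (h : Function.Injective L) :
    (Matrix.of fun l k => L (Pi.single k 1) l).det ≠ 0 := by
  have := det_ne_zero_of (A := fun a => (ContinuousLinearMap.proj a).comp L) fun w hw =>
    h (by rw [map_zero]; funext a; exact hw a)
  exact this

section
variable {d : ℕ} {F : Type} [TopologicalSpace F] [ChartedSpace (Cm d) F]
  [IsManifold 𝓘(ℂ, Cm d) ω F] {E Γ : Type} [TopologicalSpace E] [Group Γ] [MulAction Γ E]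
  [ContinuousConstSMul Γ E] [SimplyConnectedSpace E] {S : Sheets d E Γ} {π : E → F}

omit [ContinuousConstSMul Γ E] [SimplyConnectedSpace E] in
/-- the covering in a chart of `F` -/
theorem chart_comp (hπ : Pi S π) (x : F) {j : Fin S.N} {y : Cm d} (hy : y ∈ ball (0 : Cm d) 3)
    (hs : π (S.σ j y) ∈ (chartAt (Cm d) x).source) :
    DifferentiableAt ℂ (fun y => chartAt (Cm d) x (π (S.σ j y))) y ∧
      Function.Injective (fderiv ℂ (fun y => chartAt (Cm d) x (π (S.σ j y))) y) := by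
  set ch := chartAt (Cm d) x with hch
  have hM : IsManifold 𝓘(ℂ, Cm d) 1 F := IsManifold.of_le (n := ω) le_top
  have h1 : MDifferentiableAt 𝓘(ℂ, Cm d) 𝓘(ℂ, Cm d) ch (π (S.σ j y)) :=
    mdifferentiableAt_atlas (chart_mem_atlas (Cm d) x) hs
  have h2 : MDifferentiableAt 𝓘(ℂ, Cm d) 𝓘(ℂ, Cm d) ch.symm (ch (π (S.σ j y))) :=
    mdifferentiableAt_atlas_symm (chart_mem_atlas (Cm d) x) (ch.map_source hs)
  have h3 : HasMFDerivAt 𝓘(ℂ, Cm d) 𝓘(ℂ, Cm d) (fun y => ch (π (S.σ j y))) y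
      ((mfderiv 𝓘(ℂ, Cm d) 𝓘(ℂ, Cm d) ch (π (S.σ j y))).comp (D S π j y)) :=
    HasMFDerivAt.comp y h1.hasMFDerivAt (hπ.hasMFDerivAt hy)
  have h4 : DifferentiableAt ℂ (fun y => ch (π (S.σ j y))) y := h3.hasFDerivAt.differentiableAt
  refine ⟨h4, ?_⟩
  have h5 : (fun y => π (S.σ j y)) =ᶠ[𝓝 y] ch.symm ∘ fun y => ch (π (S.σ j y)) := by
    filter_upwards [(hπ.continuousAt hy).eventually (ch.open_source.mem_nhds hs)] with u hu
    exact (ch.left_inv hu).symm
  have h6 : D S π j y = (mfderiv 𝓘(ℂ, Cm d) 𝓘(ℂ, Cm d) ch.symm (ch (π (S.σ j y)))).comp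
      (fderiv ℂ (fun y => ch (π (S.σ j y))) y) :=
    ((HasMFDerivAt.comp y h2.hasMFDerivAt
      h4.hasFDerivAt.hasMFDerivAt).congr_of_eventuallyEq h5).mfderiv
  obtain ⟨L, hL⟩ := hπ.exists_equiv hy
  intro ξ ξ' hξ
  have h7 : D S π j y ξ = D S π j y ξ' := by
    have a1 : ∀ ξ : Cm d, D S π j y ξ =
        (mfderiv 𝓘(ℂ, Cm d) 𝓘(ℂ, Cm d) ch.symm (ch (π (S.σ j y)))
          (fderiv ℂ (fun y => ch (π (S.σ j y))) y ξ) : Cm d) := fun ξ =>
      congrArg (fun L : Cm d →L[ℂ] Cm d => L ξ) h6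
    have e1 := a1 ξ
    have e2 := a1 ξ'
    rw [hξ] at e1
    exact e1.trans e2.symm
  rw [← hL] at h7
  exact L.injective h7

omit [ContinuousConstSMul Γ E] [SimplyConnectedSpace E] in
/-- a function in a chart of `F` -/
theorem prim_comp (hπ : Pi S π) (x : F) {j : Fin S.N} {y : Cm d} (hy : y ∈ ball (0 : Cm d) 3)
    (hs : π (S.σ j y) ∈ (chartAt (Cm d) x).source) {φ : F → ℂ}
    (hφ : J.HolAt (Cm d) φ (π (S.σ j y))) (ξ : Cm d) :
    J.dif (Cm d) φ (π (S.σ j y)) (D S π j y ξ) =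
      fderiv ℂ (fun u => φ ((chartAt (Cm d) x).symm u)) (chartAt (Cm d) x (π (S.σ j y)))
        (fderiv ℂ (fun y => chartAt (Cm d) x (π (S.σ j y))) y ξ) := by
  obtain ⟨h1, -⟩ := chart_comp hπ x hy hs
  set ch := chartAt (Cm d) x with hch
  have hM : IsManifold 𝓘(ℂ, Cm d) 1 F := IsManifold.of_le (n := ω) le_top
  have h2 : MDifferentiableAt 𝓘(ℂ, Cm d) 𝓘(ℂ, Cm d) ch.symm (ch (π (S.σ j y))) :=
    mdifferentiableAt_atlas_symm (chart_mem_atlas (Cm d) x) (ch.map_source hs)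
  have h3 : MDifferentiableAt 𝓘(ℂ, Cm d) 𝓘(ℂ, ℂ) φ (ch.symm (ch (π (S.σ j y)))) := by
    rw [ch.left_inv hs]
    exact hφ.mdifferentiableAt (by simp)
  have h4 : DifferentiableAt ℂ (fun u => φ (ch.symm u)) (ch (π (S.σ j y))) :=
    (HasMFDerivAt.comp _ h3.hasMFDerivAt h2.hasMFDerivAt).hasFDerivAt.differentiableAt
  have h5 := h4.hasFDerivAt.comp y h1.hasFDerivAt
  have h6 : (fun y => φ (π (S.σ j y))) =ᶠ[𝓝 y]
      (fun u => φ (ch.symm u)) ∘ fun y => ch (π (S.σ j y)) := by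
    filter_upwards [(hπ.continuousAt hy).eventually (ch.open_source.mem_nhds hs)] with u hu
    show φ (π (S.σ j u)) = φ (ch.symm (ch (π (S.σ j u))))
    rw [ch.left_inv hu]
  have h7 := (h5.congr_of_eventuallyEq h6).unique (hπ.hasFDerivAt_comp hy hφ)
  have h8 := congrArg (fun L : Cm d →L[ℂ] ℂ => L ξ) h7
  exact h8.symm

/-- **The Gauss map of the fibre and of its covering** -/
theorem gaussAt (hπ : Pi S π) {r : ℕ} (x : F) (φ : Fin (r + 1) → Fin d → F → ℂ)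
    (hφ : ∀ k a, IsPrim (d := d) (φ k a) x) (h0 : coef x (φ 0) (chartAt (Cm d) x x) ≠ 0)
    (hsurj : Function.Surjective fun (ξ : Cm d) (k : Fin r) =>
      fderiv ℂ (fun v => coef x (φ k.succ) v / coef x (φ 0) v) (chartAt (Cm d) x x) ξ) :
    ∃ i, ∃ z ∈ ball (0 : Cm d) 3, S.GaussAt r i z := by
  choose hφ1 η hη1 hη2 using hφ
  choose g c hg hg' using fun k a => hπ.exists_add (hη2 k a)
  obtain ⟨e, he⟩ := hπ.surj x
  obtain ⟨γ, j, z, hz, rfl⟩ := S.cover e
  rw [hπ.inv] at he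
  have hz3 : z ∈ ball (0 : Cm d) 3 := mem_ball_zero_iff.2 (by linarith)
  set ch := chartAt (Cm d) x with hch
  set v : Cm d → Cm d := fun y => ch (π (S.σ j y)) with hv
  have hcσ := hπ.continuousAt (j := j) hz3
  have hsrc : ∀ᶠ y in 𝓝 z, π (S.σ j y) ∈ ch.source := by
    refine hcσ.eventually (ch.open_source.mem_nhds ?_)
    show π (S.σ j z) ∈ ch.source
    rw [he]
    exact mem_chart_source _ x
  have hev : ∀ k a, ∀ᶠ y in 𝓝 z, J.HolAt (Cm d) (φ k a) (π (S.σ j y)) ∧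
      η k a (π (S.σ j y)) = J.dif (Cm d) (φ k a) (π (S.σ j y)) := by
    intro k a
    refine hcσ.eventually (p := fun x' => J.HolAt (Cm d) (φ k a) x' ∧
      η k a x' = J.dif (Cm d) (φ k a) x') ?_
    show ∀ᶠ x' in 𝓝 (π (S.σ j z)), _
    rw [he]
    exact (holAt_eventually (hφ1 k a)).and (hη1 k a)
  -- the minors
  have hmin : ∀ k, ∀ᶠ y in 𝓝 z, S.minor (fun e a => g k a e) j y =
      coef x (φ k) (v y) * (jac v y).det := by
    intro k
    filter_upwards [hsrc, eventually_all.2 (hev k), isOpen_ball.mem_nhds hz3] with y h1 h2 h3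
    rw [Sheets.minor, coef, ← Matrix.det_mul, jac]
    congr 1
    rw [← matrix_comp (fun a => fderiv ℂ (fun u => φ k a (ch.symm u)) (v y)) (fderiv ℂ v y)]
    ext a b
    simp only [Matrix.of_apply]
    rw [dd, (hg' k a j y h3).fderiv, ContinuousLinearMap.comp_apply, (h2 a).2]
    exact prim_comp hπ x h3 h1 (h2 a).1 _
  have hdet : ∀ᶠ y in 𝓝 z, (jac v y).det ≠ 0 := by
    filter_upwards [hsrc, isOpen_ball.mem_nhds hz3] with y h1 h3
    exact det_jac_ne_zero (chart_comp hπ x h3 h1).2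
  have hvz : v z = ch x := by rw [hv]; simp only [he]
  obtain ⟨hvd, hvi⟩ := chart_comp hπ x hz3 hsrc.self_of_nhds
  have hvi' : Function.Bijective (fderiv ℂ v z) := by
    obtain ⟨L, hL⟩ := exists_equiv hvi
    have h1 : fderiv ℂ v z = (L : Cm d →L[ℂ] Cm d) := hL.symm
    rw [h1]
    exact L.bijective
  -- the ratios
  have hRd : ∀ k : Fin r, DifferentiableAt ℂ (fun v => coef x (φ k.succ) v / coef x (φ 0) v)
      (ch x) := by
    intro k
    by_contra hcon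
    obtain ⟨ξ, hξ⟩ := hsurj fun _ => 1
    have h1 := congrFun hξ k
    simp only [fderiv_zero_of_not_differentiableAt hcon] at h1
    simp at h1
  refine ⟨j, z, hz3, fun k e a => g k a e, fun k a => ⟨c k a, hg k a⟩, ?_, ?_⟩
  · rw [(hmin 0).self_of_nhds, hvz]
    exact mul_ne_zero h0 hdet.self_of_nhds
  · have hder : ∀ (k : Fin r) (ξ : Cm d),
        fderiv ℂ (fun u => S.minor (fun e a => g k.succ a e) j u /
          S.minor (fun e a => g 0 a e) j u) z ξ =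
        fderiv ℂ (fun v => coef x (φ k.succ) v / coef x (φ 0) v) (ch x) (fderiv ℂ v z ξ) := by
      intro k ξ
      have h1 : (fun u => S.minor (fun e a => g k.succ a e) j u /
          S.minor (fun e a => g 0 a e) j u) =ᶠ[𝓝 z]
          (fun v => coef x (φ k.succ) v / coef x (φ 0) v) ∘ v := by
        filter_upwards [hmin k.succ, hmin 0, hdet] with y a1 a2 a3
        rw [a1, a2, mul_div_mul_right _ _ a3]
        rfl
      have h2 : HasFDerivAt (fun v => coef x (φ k.succ) v / coef x (φ 0) v)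
          (fderiv ℂ (fun v => coef x (φ k.succ) v / coef x (φ 0) v) (ch x)) (v z) := by
        rw [hvz]
        exact (hRd k).hasFDerivAt
      rw [h1.fderiv_eq, (h2.comp z hvd.hasFDerivAt).fderiv]
      rfl
    intro y
    obtain ⟨ξ, hξ⟩ := hsurj y
    obtain ⟨ξ', rfl⟩ := hvi'.2 ξ
    refine ⟨ξ', ?_⟩
    rw [← hξ]
    funext k
    exact hder k ξ'

/-- **The case of tori** -/
theorem isTor (hπ : Pi S π) (hF : IsParallel d F) : S.IsTor := by
  obtain ⟨η, hη1, hη2⟩ := hF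
  choose g c hg hg' using fun a => hπ.exists_add (hη1 a)
  refine ⟨fun e a => g a e, fun a => ⟨c a, hg a⟩, fun i z hz => ?_⟩
  obtain ⟨L, hL⟩ := hπ.exists_equiv (j := i) hz
  rw [Sheets.minor]
  have h1 : (Matrix.of fun a k => dd k (fun z => g a (S.σ i z)) z) =
      Matrix.of fun a b => ((η a (π (S.σ i z))).comp (D S π i z)) (Pi.single b 1) := by
    ext a k
    simp only [Matrix.of_apply]
    rw [dd, (hg' a i z hz).fderiv]
  rw [h1]
  refine det_ne_zero_of fun w hw => ?_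
  have h2 := hη2 (π (S.σ i z)) (D S π i z w) hw
  rw [← hL] at h2
  exact L.injective (h2.trans (map_zero L).symm)

end

/-- **KFIB** -/
theorem fib : FibStmt := by
  intro p d r Z Y _ _ _ _ _ _ _ _ f S hd hf hp hAB y hy F _ _ i hi hinj hG
  obtain ⟨E, Γ, tE, t2, sc, gΓ, aΓ, cΓ, 𝓕, q, M, ht, -⟩ := hAB p d Z Y f S hd hf hp y hy
  have hyy : (chartAt (Cm p) y).symm (chartAt (Cm p) y y) = y :=
    (chartAt (Cm p) y).left_inv (mem_chart_source _ y)
  have hfd : FD (p + d) (𝓕.at _ ht) (q (chartAt (Cm p) y y)) i :=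
    fd_of_model hp M ht (by rw [hyy]; exact hy) (by rw [hyy]; exact hi) hinj
  have : CompactSpace F := hi.compact
  have : ConnectedSpace F := hi.connected
  have : IsManifold 𝓘(ℂ, Cm d) ω F := hi.manifold
  obtain ⟨π, h1, h2, h3, h4⟩ := hfd.exists_pi
  obtain ⟨x, φ, a1, a2, a3⟩ := hG
  have hres := gaussAt (S := 𝓕.at _ ht) ⟨h1, h2, h3, h4⟩ x φ a1 a2 a3
  exact ⟨E, Γ, tE, t2, sc, gΓ, aΓ, cΓ, 𝓕, q, chartAt (Cm p) y, _, ht, M, hyy, hres⟩

/-- **TFIB** -/
theorem tfib : TFibStmt := by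
  intro p d Z Y _ _ _ _ _ _ _ _ f S hd hf hp hAB y hy F _ _ i hi hinj hG
  obtain ⟨E, Γ, tE, t2, sc, gΓ, aΓ, cΓ, 𝓕, q, M, ht, -⟩ := hAB p d Z Y f S hd hf hp y hy
  have hyy : (chartAt (Cm p) y).symm (chartAt (Cm p) y y) = y :=
    (chartAt (Cm p) y).left_inv (mem_chart_source _ y)
  have hfd : FD (p + d) (𝓕.at _ ht) (q (chartAt (Cm p) y y)) i :=
    fd_of_model hp M ht (by rw [hyy]; exact hy) (by rw [hyy]; exact hi) hinj
  have : CompactSpace F := hi.compact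
  have : ConnectedSpace F := hi.connected
  have : IsManifold 𝓘(ℂ, Cm d) ω F := hi.manifold
  obtain ⟨π, h1, h2, h3, h4⟩ := hfd.exists_pi
  exact ⟨E, Γ, tE, t2, sc, gΓ, aΓ, cΓ, 𝓕, q, chartAt (Cm p) y, _, ht, M, hyy,
    isTor (S := 𝓕.at _ ht) ⟨h1, h2, h3, h4⟩ hG⟩

end Vale.Agent.P281.H125.Fib
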